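import Vale.Agent.P026Z.Final0
import Vale.Agent.P026Z.Poi.Main

/-!
P026, Q1 and Q2: the quasi-Riemann hypothesis, with the half-plane `Re s > 11/12`.
-/

namespace Vale.Agent.Results.P026.QuasiRH

/-- **The quasi-Riemann hypothesis.** The Riemann zeta function has no zero with `Re s > 11/12`,
and no Dirichlet `L`-function, of any modulus, has a zero with `Re s > 11/12` (the pole `s = 1`
of a principal character is left out). -/
theorem result :
    (∀ s : ℂ, 11 / 12 < s.re → riemannZeta s ≠ 0) ∧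
    (∀ (q : ℕ) [NeZero q] (χ : DirichletCharacter ℂ q) (s : ℂ), 11 / 12 < s.re →
      (χ ≠ 1 ∨ s ≠ 1) → DirichletCharacter.LFunction χ s ≠ 0) :=
  ⟨fun _ hs => Vale.Agent.P026Z.Fin.zeta_of Vale.Agent.P026Z.Poi.MB_of_TB hs,
    fun _ _ χ _ hs h1 => Vale.Agent.P026Z.Fin.LFunction_of Vale.Agent.P026Z.Poi.MB_of_TB χ hs h1⟩

end Vale.Agent.Results.P026.QuasiRH
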